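import Vale.Agent.Lib.P046T.Main

/-! # P046: the number of edges left by random triangle removal -/

open Finset Filter Topology
open Vale.Agent.P046T

open Classical in
/-- For every `n` there is exactly one function `p` satisfying the first-step equations of the
random triangle removal process, `p G H` being the probability that the process started from `G`
stops at `H`. With `p` the law of the final graph `H` from the complete graph `⊤` on `n` vertices
and `F_n` its number of edges: `p` is a probability on the triangle-free graphs,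
`F_n / n ^ (3 / 2)` tends to `1 / (2 * √2)` in probability, and so does its expectation. -/
theorem Vale.Agent.Results.P046.FirstStep.result :
    (∀ n : ℕ, ∃! p, RemovalLaw n p) ∧
    ∀ p : (n : ℕ) → SimpleGraph (Fin n) → SimpleGraph (Fin n) → ℝ, (∀ n, RemovalLaw n (p n)) →
      (∀ n, (∀ H, 0 ≤ p n ⊤ H) ∧ ∑ H, p n ⊤ H = 1 ∧ ∀ H, 0 < p n ⊤ H → H.CliqueFree 3) ∧
      (∀ ε : ℝ, 0 < ε → Tendsto (fun n : ℕ => ∑ H : SimpleGraph (Fin n) with
          ε ≤ |(H.edgeSet.ncard : ℝ) / (n : ℝ) ^ (3 / 2 : ℝ) - 1 / (2 * √2)|, p n ⊤ H)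
        atTop (𝓝 0)) ∧
      Tendsto (fun n : ℕ => (∑ H, p n ⊤ H * (H.edgeSet.ncard : ℝ)) / (n : ℝ) ^ (3 / 2 : ℝ))
        atTop (𝓝 (1 / (2 * √2))) :=
  main
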