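import Vale.Agent.Lib.P046D.Exist

open MeasureTheory Filter Topology
open Vale.Agent.P046D

universe u

/-- Let `T n 0, T n 1, …` be the random triangles chosen by the random triangle removal process on
`n` vertices, on any probability space, and let `F_n` be the number of edges of the final graph.
Then `F_n / n ^ (3 / 2)` tends to `1 / (2 * √2)` in probability, and so does its expectation.
The process exists for every `n` and stops almost surely. -/
theorem Vale.Agent.Results.P046.RandomChoices.result :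
    (∀ n : ℕ, ∃ (Ω : Type) (_ : MeasurableSpace Ω) (P : Measure Ω)
      (T : ℕ → Ω → Finset (Fin n)), IsProbabilityMeasure P ∧ TriangleRemoval P T) ∧
    ∀ (Ω : ℕ → Type u) [∀ n, MeasurableSpace (Ω n)] (P : ∀ n, Measure (Ω n))
      [∀ n, IsProbabilityMeasure (P n)] (T : ∀ n, ℕ → Ω n → Finset (Fin n)),
      (∀ n, TriangleRemoval (P n) (T n)) →
      (∀ n, ∀ᵐ ω ∂(P n), ∃ k, triangles (rest (fun i => T n i ω) k) = ∅) ∧
      (∀ ε : ℝ, 0 < ε → Tendsto (fun n : ℕ => P n
        {ω | ε ≤ |(numLeft (T n) ω : ℝ) / (n : ℝ) ^ (3 / 2 : ℝ) - 1 / (2 * √2)|}) atTop (𝓝 0)) ∧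
      Tendsto (fun n : ℕ => (∫ ω, (numLeft (T n) ω : ℝ) ∂(P n)) / (n : ℝ) ^ (3 / 2 : ℝ)) atTop
        (𝓝 (1 / (2 * √2))) :=
  ⟨exists_process, fun Ω _ P _ T h => ⟨fun n => ae_stops (h n), main Ω P T h⟩⟩
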