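import Vale.Agent.Lib.P046.Concl

open Filter Topology

/-- The number `F_n` of edges left by the random triangle removal process on `n` vertices:
`F_n / n ^ (3 / 2)` tends to `1 / (2 * √2)` in probability, and so does its mean. -/
theorem Vale.Agent.Results.P046.RemovalLimit.result :
    (∀ (n : ℕ) (G : SimpleGraph (Fin n)),
      G ∈ (Vale.Agent.P046.finalGraph n).support → G.CliqueFree 3) ∧
    (∀ ε : ℝ, 0 < ε → Tendsto (fun n : ℕ => (Vale.Agent.P046.finalGraph n).toOuterMeasure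
      {G | ε < |(Nat.card G.edgeSet : ℝ) / (n : ℝ) ^ (3 / 2 : ℝ) - 1 / (2 * √2)|})
        atTop (𝓝 0)) ∧
    Tendsto (fun n : ℕ => (∑ G : SimpleGraph (Fin n),
      (Vale.Agent.P046.finalGraph n G).toReal * (Nat.card G.edgeSet : ℝ)) /
        (n : ℝ) ^ (3 / 2 : ℝ)) atTop (𝓝 (1 / (2 * √2))) :=
  Vale.Agent.P046.final_theorem'
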